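import Vale.Agent.P136.Defs

/-!
# The displacement-to-traction map, literally

For real `C²` data `E` on a neighbourhood of the closure, the solution with the boundary values of
`E` is `E + w` with `w ∈ H¹₀(Ω)`, and the map pairs it with data `G` by the energy integral.
`SameMap` says that two pairs of moduli give the same pairing; it holds whenever the two maps from
`H^{1/2}` to `H^{-1/2}` agree. `H¹₀(Ω)` is the closure in `H¹` of `C²` fields with compact support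
in `Ω` (the same space as the closure of the smooth ones).
-/

noncomputable section

namespace Vale.Agent.P136.DN

open MeasureTheory Filter Topology

/-- The gradient matrix, `grad u x i j = ∂ j u i`. -/
def grad (u : R3 → Fin 3 → ℝ) : R3 → Fin 3 → Fin 3 → ℝ :=
  fun x i j => pd j (fun y => u y i) x

/-- The energy density of two gradient matrices, `lam tr p tr q + 2 mu sym p : sym q`. -/
def rform (l m : ℝ) (p q : Fin 3 → Fin 3 → ℝ) : ℝ :=
  l * ((∑ i, p i i) * ∑ i, q i i)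
    + 2 * m * ∑ i, ∑ j, ((p i j + p j i) / 2) * ((q i j + q j i) / 2)

/-- The energy pairing on `Ω`. -/
def pairing (Ω : Set R3) (lam mu : R3 → ℝ) (P Q : R3 → Fin 3 → Fin 3 → ℝ) : ℝ :=
  ∫ x in Ω, rform (lam x) (mu x) (P x) (Q x)

/-- A `C²` field with compact support in `Ω`. -/
structure Test (Ω : Set R3) (φ : R3 → Fin 3 → ℝ) : Prop where
  smooth : ContDiff ℝ 2 φ
  compact : HasCompactSupport φ
  inside : tsupport φ ⊆ Ω

/-- `w`, with gradient `Dw`, belongs to `H¹₀(Ω)`. -/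
def IsH10 (Ω : Set R3) (w : R3 → Fin 3 → ℝ) (Dw : R3 → Fin 3 → Fin 3 → ℝ) : Prop :=
  ∃ φ : ℕ → R3 → Fin 3 → ℝ, (∀ n, Test Ω (φ n)) ∧
    (∀ i, MemLp (fun x => w x i) 2 (volume.restrict Ω) ∧
      Tendsto (fun n => eLpNorm (fun x => φ n x i - w x i) 2 (volume.restrict Ω)) atTop (𝓝 0)) ∧
    ∀ i j, MemLp (fun x => Dw x i j) 2 (volume.restrict Ω) ∧
      Tendsto (fun n => eLpNorm (fun x => grad (φ n) x i j - Dw x i j) 2 (volume.restrict Ω))
        atTop (𝓝 0)

/-- `E + w`, with gradient `grad E + Dw`, is the weak solution with the boundary values of `E`. -/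
def IsSol (Ω : Set R3) (lam mu : R3 → ℝ) (E w : R3 → Fin 3 → ℝ)
    (Dw : R3 → Fin 3 → Fin 3 → ℝ) : Prop :=
  IsH10 Ω w Dw ∧ ∀ φ, Test Ω φ → pairing Ω lam mu (grad E + Dw) (grad φ) = 0

/-- Equal displacement-to-traction maps. -/
def SameMap (Ω : Set R3) (lam₁ mu₁ lam₂ mu₂ : R3 → ℝ) : Prop :=
  ∀ (U : Set R3) (E G w₁ w₂ : R3 → Fin 3 → ℝ) (Dw₁ Dw₂ : R3 → Fin 3 → Fin 3 → ℝ),
    IsOpen U → closure Ω ⊆ U → ContDiffOn ℝ 2 E U → ContDiffOn ℝ 2 G U →
    IsSol Ω lam₁ mu₁ E w₁ Dw₁ → IsSol Ω lam₂ mu₂ E w₂ Dw₂ →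
    pairing Ω lam₁ mu₁ (grad E + Dw₁) (grad G) = pairing Ω lam₂ mu₂ (grad E + Dw₂) (grad G)

end Vale.Agent.P136.DN
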