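import Vale.Agent.P136.Mod.DN.Def
import Vale.Agent.P136.Mod.Calc

/-!
# The energy as a squared norm, test fields, Korn and Poincaré
-/

noncomputable section

namespace Vale.Agent.P136.DN

open MeasureTheory Filter Topology
open scoped RealInnerProductSpace

/-- The target of the weighted strain. -/
abbrev E10 : Type := EuclideanSpace ℝ (Option (Fin 3 × Fin 3))

/-- The weighted strain: its squared norm is the energy. -/
def qmap (l m : ℝ) (p : Fin 3 → Fin 3 → ℝ) : E10 :=
  WithLp.toLp 2 fun o => match o with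
    | none => Real.sqrt (l + 2 * m / 3) * ∑ i, p i i
    | some (i, j) => Real.sqrt (2 * m) *
        ((p i j + p j i) / 2 - if i = j then (∑ k, p k k) / 3 else 0)

theorem inner_qmap {l m : ℝ} (hl : 0 ≤ l + 2 * m / 3) (hm : 0 ≤ m) (p q : Fin 3 → Fin 3 → ℝ) :
    ⟪qmap l m p, qmap l m q⟫ = rform l m p q := by
  have ha := Real.mul_self_sqrt hl
  have hb := Real.mul_self_sqrt (show (0 : ℝ) ≤ 2 * m by linarith)
  simp only [qmap, PiLp.inner_apply, RCLike.inner_apply, conj_trivial, Fintype.sum_option,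
    Fintype.sum_prod_type, rform, Fin.sum_univ_three, Fin.isValue, Fin.reduceEq, if_true,
    if_false]
  set a := Real.sqrt (l + 2 * m / 3)
  set b := Real.sqrt (2 * m)
  have hl' : l = a * a - b * b / 3 := by rw [ha, hb]; ring
  have hm' : m = b * b / 2 := by rw [hb]; ring
  rw [hl', hm']; ring

theorem qmap_add (l m : ℝ) (p q : Fin 3 → Fin 3 → ℝ) :
    qmap l m (p + q) = qmap l m p + qmap l m q := by
  refine PiLp.ext fun o => ?_
  rcases o with _ | ⟨i, j⟩
  · simp [qmap, Finset.sum_add_distrib, mul_add]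
  · simp only [qmap, PiLp.add_apply, Pi.add_apply, Finset.sum_add_distrib]
    split_ifs <;> ring

theorem qmap_sub (l m : ℝ) (p q : Fin 3 → Fin 3 → ℝ) :
    qmap l m (p - q) = qmap l m p - qmap l m q := by
  rw [eq_sub_iff_add_eq, ← qmap_add, sub_add_cancel]

theorem qmap_smul (l m c : ℝ) (p : Fin 3 → Fin 3 → ℝ) :
    qmap l m (c • p) = c • qmap l m p := by
  refine PiLp.ext fun o => ?_
  rcases o with _ | ⟨i, j⟩
  · simp [qmap, ← Finset.mul_sum, mul_left_comm]
  · simp only [qmap, PiLp.smul_apply, Pi.smul_apply, smul_eq_mul, ← Finset.mul_sum]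
    split_ifs <;> ring

variable {Ω : Set R3}

/-- The hypotheses on `Ω` and the moduli that the construction uses. -/
structure Setup (Ω : Set R3) (lam mu : R3 → ℝ) : Prop where
  isOpen : IsOpen Ω
  bounded : Bornology.IsBounded Ω
  nonempty : Ω.Nonempty
  adm : Admissible Ω lam mu

theorem Setup.compact {lam mu : R3 → ℝ} (h : Setup Ω lam mu) : IsCompact (closure Ω) :=
  h.bounded.isCompact_closure

theorem Setup.a_pos {lam mu : R3 → ℝ} (h : Setup Ω lam mu) {x : R3} (hx : x ∈ closure Ω) :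
    0 < lam x + 2 * mu x / 3 := by
  linarith [h.adm.bulk_pos x hx]

theorem Setup.cont {lam mu : R3 → ℝ} (h : Setup Ω lam mu) {P : R3 → Fin 3 → Fin 3 → ℝ}
    {s : Set R3} (hP : ∀ i j, ContinuousOn (fun x => P x i j) s) :
    ContinuousOn (fun x => qmap (lam x) (mu x) (P x)) s := by
  have hl := h.adm.smooth_lam.continuous.continuousOn (s := s)
  have hm := h.adm.smooth_mu.continuous.continuousOn (s := s)
  refine (PiLp.continuous_toLp 2 _).comp_continuousOn (continuousOn_pi.2 fun o => ?_)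
  rcases o with _ | ⟨i, j⟩
  · exact (Real.continuous_sqrt.comp_continuousOn (hl.add ((continuousOn_const.mul hm).div_const 3))).mul
      (continuousOn_finsetSum _ fun k _ => hP k k)
  · refine (Real.continuous_sqrt.comp_continuousOn (continuousOn_const.mul hm)).mul
      ((((hP i j).add (hP j i)).div_const 2).sub ?_)
    split_ifs
    · exact (continuousOn_finsetSum _ fun k _ => hP k k).div_const 3
    · exact continuousOn_const

/-- Coercivity of the energy on symmetric parts, uniformly on the closure. -/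
theorem Setup.coercive {lam mu : R3 → ℝ} (h : Setup Ω lam mu) :
    ∃ c > 0, ∀ x ∈ closure Ω, ∀ p, c * ∑ i, ∑ j, ((p i j + p j i) / 2) ^ 2
      ≤ ⟪qmap (lam x) (mu x) p, qmap (lam x) (mu x) p⟫ := by
  obtain ⟨x₀, hx₀, hmin⟩ := h.compact.exists_isMinOn h.nonempty.closure
    (f := fun x => min (3 * lam x + 2 * mu x) (2 * mu x))
    (((continuous_const.mul h.adm.smooth_lam.continuous).add
      (continuous_const.mul h.adm.smooth_mu.continuous)).min
      (continuous_const.mul h.adm.smooth_mu.continuous)).continuousOn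
  refine ⟨min (3 * lam x₀ + 2 * mu x₀) (2 * mu x₀),
    lt_min (h.adm.bulk_pos _ hx₀) (by linarith [h.adm.mu_pos _ hx₀]), fun x hx p => ?_⟩
  rw [inner_qmap (h.a_pos hx).le (h.adm.mu_pos x hx).le]
  set c := min (3 * lam x₀ + 2 * mu x₀) (2 * mu x₀)
  have h1 : c ≤ 3 * lam x + 2 * mu x := (isMinOn_iff.1 hmin x hx).trans (min_le_left _ _)
  have h2 : c ≤ 2 * mu x := (isMinOn_iff.1 hmin x hx).trans (min_le_right _ _)
  set S := ∑ i, ∑ j, ((p i j + p j i) / 2) ^ 2 with hS
  set t := ∑ i, p i i with ht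
  have hdev : t ^ 2 / 3 ≤ S := by
    simp only [hS, ht, Fin.sum_univ_three]
    nlinarith [sq_nonneg (p 0 0 - p 1 1), sq_nonneg (p 1 1 - p 2 2), sq_nonneg (p 2 2 - p 0 0),
      sq_nonneg (p 0 1 + p 1 0), sq_nonneg (p 0 2 + p 2 0), sq_nonneg (p 1 2 + p 2 1)]
  have e : rform (lam x) (mu x) p p = lam x * t ^ 2 + 2 * mu x * S := by
    simp only [rform, hS, ht, sq]
  rw [e]
  nlinarith [mul_le_mul_of_nonneg_right h1 (sq_nonneg t),
    mul_le_mul_of_nonneg_right h2 (sub_nonneg.2 hdev)]

/-- Boundedness of the weighted strain, uniformly on the closure. -/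
theorem Setup.qmap_le {lam mu : R3 → ℝ} (h : Setup Ω lam mu) :
    ∃ C, 0 ≤ C ∧ ∀ x ∈ closure Ω, ∀ p, ‖qmap (lam x) (mu x) p‖ ≤ C * ∑ i, ∑ j, |p i j| := by
  have hb : ∀ i j : Fin 3, ∃ C, ∀ x ∈ closure Ω,
      ‖qmap (lam x) (mu x) (Pi.single i (Pi.single j 1))‖ ≤ C := fun i j =>
    h.compact.exists_bound_of_continuousOn (h.cont fun _ _ => continuousOn_const)
  choose C hC using hb
  refine ⟨∑ i, ∑ j, |C i j|, by positivity, fun x hx p => ?_⟩
  have hp : p = ∑ i, ∑ j, p i j • Pi.single i (Pi.single j 1) := by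
    funext a b
    fin_cases a <;> fin_cases b <;> simp [Finset.sum_apply, Fin.sum_univ_three, Pi.single_apply]
  let L : (Fin 3 → Fin 3 → ℝ) →ₗ[ℝ] E10 :=
    { toFun := qmap (lam x) (mu x), map_add' := qmap_add _ _, map_smul' := qmap_smul _ _ }
  have hL : qmap (lam x) (mu x) p
      = ∑ i, ∑ j, p i j • qmap (lam x) (mu x) (Pi.single i (Pi.single j 1)) := by
    show L p = ∑ i, ∑ j, p i j • L (Pi.single i (Pi.single j 1))
    conv_lhs => rw [hp]
    simp only [map_sum, map_smul]
  rw [hL, Finset.mul_sum]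
  refine (norm_sum_le _ _).trans (Finset.sum_le_sum fun i _ => ?_)
  rw [Finset.mul_sum]
  refine (norm_sum_le _ _).trans (Finset.sum_le_sum fun j _ => ?_)
  rw [norm_smul, Real.norm_eq_abs, mul_comm]
  refine mul_le_mul_of_nonneg_right ?_ (abs_nonneg _)
  exact (hC i j x hx).trans ((le_abs_self _).trans <| (Finset.single_le_sum
    (f := fun j => |C i j|) (fun _ _ => abs_nonneg _) (Finset.mem_univ j)).trans
    (Finset.single_le_sum (f := fun i => ∑ j, |C i j|)
      (fun _ _ => by positivity) (Finset.mem_univ i)))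

theorem grad_sub {φ ψ : R3 → Fin 3 → ℝ} (hφ : ContDiff ℝ 2 φ) (hψ : ContDiff ℝ 2 ψ) :
    grad (φ - ψ) = grad φ - grad ψ := by
  funext x i j
  exact pd_sub ((contDiff_pi.1 hφ i).differentiable (by norm_num) x)
    ((contDiff_pi.1 hψ i).differentiable (by norm_num) x)

theorem grad_add {φ ψ : R3 → Fin 3 → ℝ} (hφ : ContDiff ℝ 2 φ) (hψ : ContDiff ℝ 2 ψ) :
    grad (φ + ψ) = grad φ + grad ψ := by
  funext x i j
  exact pd_add ((contDiff_pi.1 hφ i).differentiable (by norm_num) x)
    ((contDiff_pi.1 hψ i).differentiable (by norm_num) x)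

theorem cont_grad {φ : R3 → Fin 3 → ℝ} (hφ : ContDiff ℝ 2 φ) (i j : Fin 3) :
    Continuous fun x => grad φ x i j :=
  ((contDiff_pi.1 hφ i).continuous_fderiv (by norm_num)).clm_apply continuous_const

theorem supp_pd {f : R3 → ℝ} (hf : HasCompactSupport f) (j : Fin 3) :
    HasCompactSupport (pd j f) := hf.fderiv_apply ℝ _

/-- Integration by parts. -/
theorem ibp {f g : R3 → ℝ} (hf : ContDiff ℝ 1 f) (hg : ContDiff ℝ 1 g)
    (hgs : HasCompactSupport g) (i : Fin 3) :
    ∫ x, f x * pd i g x = -∫ x, pd i f x * g x := by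
  have hcf : Continuous fun x => pd i f x :=
    (hf.continuous_fderiv one_ne_zero).clm_apply continuous_const
  have hcg : Continuous fun x => pd i g x :=
    (hg.continuous_fderiv one_ne_zero).clm_apply continuous_const
  exact integral_mul_fderiv_eq_neg_fderiv_mul_of_integrable
    ((hcf.mul hg.continuous).integrable_of_hasCompactSupport hgs.mul_left)
    ((hf.continuous.mul hcg).integrable_of_hasCompactSupport (supp_pd hgs i).mul_left)
    ((hf.continuous.mul hg.continuous).integrable_of_hasCompactSupport hgs.mul_left)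
    (fun x _ => hf.differentiable one_ne_zero x) (fun x _ => hg.differentiable one_ne_zero x)

theorem Test.comp {φ : R3 → Fin 3 → ℝ} (h : Test Ω φ) (i : Fin 3) :
    HasCompactSupport fun x => φ x i :=
  h.compact.comp_left (g := fun v : Fin 3 → ℝ => v i) rfl

theorem Test.comp_grad {φ : R3 → Fin 3 → ℝ} (h : Test Ω φ) (i j : Fin 3) :
    HasCompactSupport fun x => grad φ x i j := supp_pd (h.comp i) j

theorem Test.grad_eq_zero {φ : R3 → Fin 3 → ℝ} (h : Test Ω φ) {x : R3} (hx : x ∉ Ω) :
    grad φ x = 0 := by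
  funext i j
  have e : (fun y => φ y i) =ᶠ[𝓝 x] fun _ => 0 := by
    filter_upwards [notMem_tsupport_iff_eventuallyEq.1 fun hh => hx (h.inside hh)] with y hy
    simp [hy]
  simp [grad, pd_congr e]

theorem Test.sub {φ ψ : R3 → Fin 3 → ℝ} (h : Test Ω φ) (k : Test Ω ψ) : Test Ω (φ - ψ) :=
  ⟨h.smooth.sub k.smooth, h.compact.sub k.compact,
    (tsupport_sub φ ψ).trans (Set.union_subset h.inside k.inside)⟩

theorem Test.add {φ ψ : R3 → Fin 3 → ℝ} (h : Test Ω φ) (k : Test Ω ψ) : Test Ω (φ + ψ) :=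
  ⟨h.smooth.add k.smooth, h.compact.add k.compact,
    (tsupport_add φ ψ).trans (Set.union_subset h.inside k.inside)⟩

/-- Korn's inequality for test fields. -/
theorem korn {φ : R3 → Fin 3 → ℝ} (h : Test Ω φ) (i j : Fin 3) :
    ∫ x, grad φ x i j ^ 2
      ≤ 2 * ∫ x, ∑ a, ∑ b, ((grad φ x a b + grad φ x b a) / 2) ^ 2 := by
  have hc := cont_grad h.smooth
  have hI : ∀ a b c d, Integrable fun x => grad φ x a b * grad φ x c d := fun a b c d =>
    ((hc a b).mul (hc c d)).integrable_of_hasCompactSupport (h.comp_grad a b).mul_right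
  have hφ : ∀ a, ContDiff ℝ 2 fun y => φ y a := contDiff_pi.1 h.smooth
  have h1 : ∀ a b, ContDiff ℝ 1 (fun x => grad φ x a b) := fun a b =>
    ((hφ a).fderiv_right (m := 1) (by norm_num)).clm_apply contDiff_const
  have hswap : ∀ a b c d, ∫ x, grad φ x a b * grad φ x c d
      = ∫ x, grad φ x a d * grad φ x c b := by
    intro a b c d
    have e : ∀ b d, ∫ x, grad φ x a b * grad φ x c d
        = -∫ x, pd d (fun y => grad φ y a b) x * φ x c := fun b d =>
      ibp (h1 a b) ((hφ c).of_le (by norm_num)) (h.comp c) d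
    rw [e b d, e d b]
    congr 1
    refine integral_congr_ae (.of_forall fun x => ?_)
    have hs : IsSymmSndFDerivAt ℝ (fun y => φ y a) x :=
      (hφ a).contDiffAt.isSymmSndFDerivAt (by simp)
    have hd : DifferentiableAt ℝ (fderiv ℝ fun y => φ y a) x :=
      (((hφ a).fderiv_right (m := 1) (by norm_num)).differentiable one_ne_zero) x
    simp [pd, grad, fderiv_clm_apply hd (differentiableAt_const _), hs.eq]
  have hdiv : 0 ≤ ∑ a, ∑ b, ∫ x, grad φ x a b * grad φ x b a := by
    rw [Finset.sum_congr rfl fun a (_ : a ∈ Finset.univ) =>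
      Finset.sum_congr rfl fun b (_ : b ∈ Finset.univ) => hswap a b b a]
    rw [show (∑ a, ∑ b, ∫ x, grad φ x a a * grad φ x b b)
      = ∫ x, (∑ a, grad φ x a a) ^ 2 by
        simp only [sq, Finset.sum_mul_sum]
        rw [integral_finsetSum _ fun a _ => integrable_finsetSum _ fun b _ => hI _ _ _ _]
        simp only [integral_finsetSum _ fun b _ => hI _ _ _ _]]
    exact integral_nonneg fun x => sq_nonneg _
  have e : ∀ x, (∑ a, ∑ b, ((grad φ x a b + grad φ x b a) / 2) ^ 2)
      = (∑ a, ∑ b, grad φ x a b * grad φ x a b) / 2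
        + (∑ a, ∑ b, grad φ x a b * grad φ x b a) / 2 := by
    intro x; simp only [Fin.sum_univ_three]; ring
  simp only [e]
  rw [integral_add ((integrable_finsetSum _ fun a _ =>
      integrable_finsetSum _ fun b _ => hI _ _ _ _).div_const 2)
    ((integrable_finsetSum _ fun a _ =>
      integrable_finsetSum _ fun b _ => hI _ _ _ _).div_const 2), integral_div, integral_div,
    integral_finsetSum _ fun a _ => integrable_finsetSum _ fun b _ => hI _ _ _ _,
    integral_finsetSum _ fun a _ => integrable_finsetSum _ fun b _ => hI _ _ _ _]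
  simp only [integral_finsetSum _ fun b _ => hI _ _ _ _]
  have h0 : ∀ a b, 0 ≤ ∫ x, grad φ x a b * grad φ x a b := fun a b =>
    integral_nonneg fun x => mul_self_nonneg _
  have hij : ∫ x, grad φ x i j ^ 2 ≤ ∑ a, ∑ b, ∫ x, grad φ x a b * grad φ x a b := by
    simp only [sq]
    exact (Finset.single_le_sum (f := fun b => ∫ x, grad φ x i b * grad φ x i b)
      (fun b _ => h0 i b) (Finset.mem_univ j)).trans (Finset.single_le_sum
      (f := fun a => ∑ b, ∫ x, grad φ x a b * grad φ x a b)
      (fun a _ => Finset.sum_nonneg fun b _ => h0 a b) (Finset.mem_univ i))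
  linarith

end Vale.Agent.P136.DN
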