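import Vale.Agent.P136.Mod.DN.Weak
import Vale.Agent.P136.Mod.Extend

/-!
# A `C²` field that vanishes on the boundary belongs to the closure of the test fields
-/

noncomputable section

namespace Vale.Agent.P136.DN

open MeasureTheory Filter Topology

variable {Ω : Set R3} {lam mu : R3 → ℝ}

/-- The derivative of a `C¹` function vanishes almost everywhere on its zero set. -/
theorem pd_ae_eq_zero {f : R3 → ℝ} (hf : ContDiff ℝ 1 f) (j : Fin 3) :
    ∀ᵐ x ∂(volume : Measure R3), f x = 0 → pd j f x = 0 := by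
  set e : R3 := EuclideanSpace.single j 1
  set Z : Set R3 := {x | f x = 0 ∧ pd j f x ≠ 0}
  have hZ : MeasurableSet Z :=
    (isClosed_eq hf.continuous continuous_const).measurableSet.inter
      (isOpen_ne_fun (f := pd j f) ((hf.continuous_fderiv one_ne_zero).clm_apply continuous_const)
        (continuous_const (y := (0 : ℝ)))).measurableSet
  have hslice : ∀ x : R3, {t : ℝ | x + t • e ∈ Z}.Countable := fun x => by
    refine (countable_setOfPred_isolated_right_within
      (s := {t : ℝ | x + t • e ∈ Z})).mono ?_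
    intro t ht
    refine ⟨ht, ?_⟩
    have hd : HasDerivAt (fun s : ℝ => f (x + s • e)) (pd j f (x + t • e)) t := by
      have h1 : HasDerivAt (fun s : ℝ => x + s • e) e t := by
        simpa using ((hasDerivAt_id t).smul_const e).const_add x
      exact (hf.differentiable one_ne_zero _).hasFDerivAt.comp_hasDerivAt t h1
    have h := hd.eventually_ne (c := (0 : ℝ)) ht.2
    rw [← empty_mem_iff_bot]
    rw [eventually_nhdsWithin_iff] at h
    refine mem_nhdsWithin_iff_exists_mem_nhds_inter.2 ⟨_, h, ?_⟩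
    rintro s ⟨hs, hsm, hst⟩
    exact hs (ne_of_gt hst) hsm.1
  set τ : Measure ℝ := volume.restrict (Set.Icc 0 1)
  set A : Set (R3 × ℝ) := {q | q.1 + q.2 • e ∈ Z}
  have hA : MeasurableSet A := (measurable_fst.add (measurable_snd.smul_const e)) hZ
  have h0 : (volume.prod τ) A = 0 :=
    (Measure.measure_prod_null hA).2 (.of_forall fun x =>
      measure_mono_null (t := {t : ℝ | x + t • e ∈ Z}) (fun t ht => ht) ((hslice x).measure_zero τ))
  rw [Measure.prod_apply_symm hA] at h0
  have hconst : ∀ t : ℝ, volume ((fun x : R3 => (x, t)) ⁻¹' A) = volume Z := fun t =>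
    measure_preimage_add_right volume (t • e) Z
  simp only [hconst, lintegral_const] at h0
  have hτ : τ Set.univ = 1 := by simp [τ]
  rw [hτ, mul_one] at h0
  rw [ae_iff]
  simpa [Z] using h0

/-- The truncation `t ↦ t s(t²)`, zero near the origin and the identity far out. -/
def trunc (t : ℝ) : ℝ := t * Real.smoothTransition ((t ^ 2 - 1) / 3)

theorem contDiff_trunc : ContDiff ℝ 2 trunc :=
  contDiff_id.mul (Real.smoothTransition.contDiff.comp
    (((contDiff_id.pow 2).sub contDiff_const).div_const 3))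

theorem trunc_zero {t : ℝ} (h : |t| ≤ 1) : trunc t = 0 := by
  have : t ^ 2 ≤ 1 := by nlinarith [sq_abs t, abs_nonneg t]
  rw [trunc, Real.smoothTransition.zero_of_nonpos (by linarith), mul_zero]

theorem trunc_id {t : ℝ} (h : 2 ≤ |t|) : trunc t = t := by
  have : 4 ≤ t ^ 2 := by nlinarith [sq_abs t, abs_nonneg t]
  rw [trunc, Real.smoothTransition.one_of_one_le (by linarith), mul_one]

theorem deriv_trunc_zero : deriv trunc 0 = 0 := by
  have h : trunc =ᶠ[𝓝 0] fun _ => 0 := by
    filter_upwards [Metric.closedBall_mem_nhds (0 : ℝ) one_pos] with t ht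
    exact trunc_zero (by simpa using ht)
  simp [h.deriv_eq]

theorem deriv_trunc_id {t : ℝ} (ht : 2 < |t|) : deriv trunc t = 1 := by
  have h : trunc =ᶠ[𝓝 t] id := by
    filter_upwards [(isOpen_lt continuous_const continuous_abs).mem_nhds ht] with s hs
    exact trunc_id (le_of_lt hs)
  simp [h.deriv_eq]

theorem deriv_trunc_bound : ∃ C, ∀ t, |deriv trunc t| ≤ C := by
  obtain ⟨C, hC⟩ := (isCompact_Icc (a := (-2 : ℝ)) (b := 2)).exists_bound_of_continuousOn
    (contDiff_trunc.continuous_deriv (by norm_num)).continuousOn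
  refine ⟨max C 1, fun t => ?_⟩
  by_cases h : |t| ≤ 2
  · exact (hC t (abs_le.1 h)).trans (le_max_left _ _)
  · rw [deriv_trunc_id (not_le.1 h), abs_one]; exact le_max_right _ _

/-- The truncated field. -/
def truncField (Ω : Set R3) (f : R3 → ℝ) (n : ℕ) : R3 → ℝ :=
  Ω.indicator fun x => trunc ((n + 1 : ℝ) * f x) / (n + 1)

theorem truncField_eventually (hΩ : IsOpen Ω) {f : R3 → ℝ} (hf : Continuous f)
    (hfr : ∀ x ∈ frontier Ω, f x = 0) (n : ℕ) {x : R3} (hx : x ∉ Ω) :
    truncField Ω f n =ᶠ[𝓝 x] fun _ => 0 := by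
  by_cases hc : x ∈ closure Ω
  · have h0 : f x = 0 := hfr x ⟨hc, by rwa [hΩ.interior_eq]⟩
    have hsmall : ∀ᶠ y in 𝓝 x, |(n + 1 : ℝ) * f y| < 1 :=
      (continuous_const.mul hf).abs.continuousAt.eventually_lt_const (by simp [h0])
    filter_upwards [hsmall] with y hy
    simp [truncField, trunc_zero hy.le]
  · filter_upwards [isClosed_closure.isOpen_compl.mem_nhds hc] with y hy
    exact Set.indicator_of_notMem (fun h => hy (subset_closure h)) _

theorem contDiff_truncField (hΩ : IsOpen Ω) {f : R3 → ℝ} (hf : ContDiff ℝ 2 f)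
    (hfr : ∀ x ∈ frontier Ω, f x = 0) (n : ℕ) : ContDiff ℝ 2 (truncField Ω f n) := by
  refine contDiff_iff_contDiffAt.2 fun x => ?_
  by_cases hx : x ∈ Ω
  · have hc : ContDiff ℝ 2 fun y => trunc ((n + 1 : ℝ) * f y) / (n + 1) :=
      (contDiff_trunc.comp (contDiff_const.mul hf)).div_const _
    refine hc.contDiffAt.congr_of_eventuallyEq ?_
    filter_upwards [hΩ.mem_nhds hx] with y hy
    simp [truncField, hy]
  · exact contDiffAt_const.congr_of_eventuallyEq (truncField_eventually hΩ hf.continuous hfr n hx)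

theorem pd_truncField (hΩ : IsOpen Ω) {f : R3 → ℝ} (hf : ContDiff ℝ 2 f) (n : ℕ) (j : Fin 3)
    {x : R3} (hx : x ∈ Ω) :
    pd j (truncField Ω f n) x = deriv trunc ((n + 1 : ℝ) * f x) * pd j f x := by
  have h : truncField Ω f n =ᶠ[𝓝 x] fun y => trunc ((n + 1 : ℝ) * f y) / (n + 1) := by
    filter_upwards [hΩ.mem_nhds hx] with y hy
    simp [truncField, hy]
  rw [pd_congr h]
  have h1 := ((hf.differentiable (by norm_num) x).hasFDerivAt.const_mul (n + 1 : ℝ))
  have h2 := ((contDiff_trunc.differentiable (by norm_num) _).hasDerivAt.comp_hasFDerivAt x h1)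
  have h3 := h2.mul_const ((n : ℝ) + 1)⁻¹
  rw [show pd j (fun y => trunc ((n + 1 : ℝ) * f y) / (n + 1)) x = _ from
    congrArg (fun L : R3 →L[ℝ] ℝ => L (EuclideanSpace.single j 1)) h3.fderiv]
  simp [pd]
  field_simp

/-- Integrable dominated convergence gives convergence in `L²`. -/
theorem eLpNorm_tendsto_zero {g : ℕ → R3 → ℝ} {b : R3 → ℝ}
    (hg : ∀ n, MemLp (g n) 2 (volume.restrict Ω)) (hb : MemLp b 2 (volume.restrict Ω))
    (hle : ∀ n, ∀ᵐ x ∂(volume.restrict Ω), |g n x| ≤ b x)
    (hlim : ∀ᵐ x ∂(volume.restrict Ω), Tendsto (fun n => g n x) atTop (𝓝 0)) :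
    Tendsto (fun n => eLpNorm (g n) 2 (volume.restrict Ω)) atTop (𝓝 0) := by
  have h : Tendsto (fun n => ∫ x in Ω, g n x ^ 2) atTop (𝓝 0) := by
    have := tendsto_integral_of_dominated_convergence (μ := volume.restrict Ω)
      (F := fun n x => g n x ^ 2) (f := fun _ => (0 : ℝ)) (fun x => b x ^ 2)
      (fun n => ((hg n).1.mul (hg n).1).congr (.of_forall fun x => (sq _).symm)) hb.integrable_sq
      (fun n => by
        filter_upwards [hle n] with x hx
        rw [Real.norm_eq_abs, abs_pow]
        exact pow_le_pow_left₀ (abs_nonneg _) hx 2)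
      (by filter_upwards [hlim] with x hx; simpa using hx.pow 2)
    simpa using this
  have h2 : Tendsto (fun n => ENNReal.ofReal (Real.sqrt (∫ x in Ω, g n x ^ 2))) atTop (𝓝 0) := by
    have := ENNReal.tendsto_ofReal ((Real.continuous_sqrt.tendsto 0).comp h)
    simpa using this
  refine h2.congr fun n => ?_
  rw [(hg n).eLpNorm_eq_integral_rpow_norm two_ne_zero ENNReal.ofNat_ne_top]
  simp only [ENNReal.toReal_ofNat, Real.norm_eq_abs, Real.rpow_two, sq_abs]
  rw [show (2 : ℝ)⁻¹ = 1 / 2 by norm_num, ← Real.sqrt_eq_rpow]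

/-- A `C²` field that vanishes on the boundary has its gradient class in `W`. -/
theorem zero_trace_mem (h : Setup Ω lam mu) {f : R3 → Fin 3 → ℝ} (hf : ContDiff ℝ 2 f)
    (hfr : ∀ x ∈ frontier Ω, f x = 0) (hP : MemL2 Ω (grad f)) : toH h hP ∈ W h := by
  have hfi : ∀ i, ContDiff ℝ 2 fun y => f y i := contDiff_pi.1 hf
  have hfri : ∀ i, ∀ x ∈ frontier Ω, f x i = 0 := fun i x hx => by rw [hfr x hx]; rfl
  let φ : ℕ → R3 → Fin 3 → ℝ := fun n x i => truncField Ω (fun y => f y i) n x
  have hev : ∀ n, ∀ x ∉ Ω, φ n =ᶠ[𝓝 x] fun _ => 0 := fun n x hx => by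
    filter_upwards [eventually_all.2 fun i =>
      truncField_eventually h.isOpen (hfi i).continuous (hfri i) n hx] with y hy
    funext i
    exact hy i
  have hins : ∀ n, tsupport (φ n) ⊆ Ω := fun n x hx => by
    by_contra hx'
    exact notMem_tsupport_iff_eventuallyEq.2 (hev n x hx') hx
  have hφ : ∀ n, Test Ω (φ n) := fun n =>
    ⟨contDiff_pi.2 fun i => contDiff_truncField h.isOpen (hfi i) (hfri i) n,
      h.compact.of_isClosed_subset (isClosed_tsupport _) ((hins n).trans subset_closure), hins n⟩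
  refine (Submodule.isClosed_topologicalClosure _).mem_of_tendsto
    (tendsto_toH h (fun n => memL2_test h (hφ n)) hP fun i j => ?_)
    (.of_forall fun n => testH_mem h (hφ n))
  obtain ⟨C, hC⟩ := deriv_trunc_bound
  have hgr : ∀ n, ∀ x ∈ Ω, grad (φ n) x i j
      = deriv trunc ((n + 1 : ℝ) * f x i) * grad f x i j := fun n x hx =>
    pd_truncField h.isOpen (hfi i) n j hx
  refine eLpNorm_tendsto_zero (b := fun x => (C + 1) * |grad f x i j|)
    (fun n => (memL2_test h (hφ n) i j).sub (hP i j)) (((hP i j).abs).const_mul _) (fun n => ?_) ?_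
  · filter_upwards [self_mem_ae_restrict h.isOpen.measurableSet] with x hx
    rw [hgr n x hx, ← sub_one_mul, abs_mul]
    refine mul_le_mul_of_nonneg_right ((abs_sub _ _).trans ?_) (abs_nonneg _)
    rw [abs_one]; linarith [hC ((n + 1 : ℝ) * f x i)]
  · filter_upwards [self_mem_ae_restrict h.isOpen.measurableSet,
      ae_restrict_of_ae (pd_ae_eq_zero ((hfi i).of_le (by norm_num)) j)] with x hx hz
    by_cases h0 : f x i = 0
    · have : grad f x i j = 0 := hz h0
      simp [hgr _ x hx, this]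
    · refine tendsto_const_nhds.congr' ?_
      obtain ⟨N, hN⟩ := exists_nat_gt (2 / |f x i|)
      filter_upwards [eventually_ge_atTop N] with n hn
      have h2 : 2 < |((n : ℝ) + 1) * f x i| := by
        rw [abs_mul, abs_of_pos (by positivity : (0 : ℝ) < n + 1)]
        rw [div_lt_iff₀ (abs_pos.2 h0)] at hN
        nlinarith [abs_pos.2 h0, (by exact_mod_cast hn : (N : ℝ) ≤ n)]
      rw [hgr n x hx, deriv_trunc_id h2, one_mul, sub_self]

end Vale.Agent.P136.DN
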