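import Vale.Agent.P136.Mod.DN.Space

/-!
# Weak solutions by orthogonal projection
-/

noncomputable section

namespace Vale.Agent.P136.DN

open MeasureTheory Filter Topology
open scoped RealInnerProductSpace

variable {Ω : Set R3} {lam mu : R3 → ℝ}

/-- The energy space. -/
abbrev H (Ω : Set R3) : Type := Lp E10 2 (volume.restrict Ω : Measure R3)

/-- All components are square integrable on `Ω`. -/
def MemL2 (Ω : Set R3) (P : R3 → Fin 3 → Fin 3 → ℝ) : Prop :=
  ∀ i j, MemLp (fun x => P x i j) 2 (volume.restrict Ω)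

theorem MemL2.add {P Q : R3 → Fin 3 → Fin 3 → ℝ} (hP : MemL2 Ω P) (hQ : MemL2 Ω Q) :
    MemL2 Ω (P + Q) := fun i j => (hP i j).add (hQ i j)

theorem MemL2.sub {P Q : R3 → Fin 3 → Fin 3 → ℝ} (hP : MemL2 Ω P) (hQ : MemL2 Ω Q) :
    MemL2 Ω (P - Q) := fun i j => (hP i j).sub (hQ i j)

/-- The weighted strain of a matrix field. -/
def qfun (lam mu : R3 → ℝ) (P : R3 → Fin 3 → Fin 3 → ℝ) : R3 → E10 :=
  fun x => qmap (lam x) (mu x) (P x)

theorem qfun_bound (h : Setup Ω lam mu) :
    ∃ C, 0 ≤ C ∧ ∀ P : R3 → Fin 3 → Fin 3 → ℝ, ∀ᵐ x ∂(volume.restrict Ω),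
      ‖qfun lam mu P x‖ ≤ C * ∑ i, ∑ j, |P x i j| := by
  obtain ⟨C, hC0, hC⟩ := h.qmap_le
  refine ⟨C, hC0, fun P => ?_⟩
  filter_upwards [self_mem_ae_restrict h.isOpen.measurableSet] with x hx
  exact hC x (subset_closure hx) (P x)

theorem memLp_qfun (h : Setup Ω lam mu) {P : R3 → Fin 3 → Fin 3 → ℝ} (hP : MemL2 Ω P) :
    MemLp (qfun lam mu P) 2 (volume.restrict Ω) := by
  have hl := h.adm.smooth_lam.continuous.aestronglyMeasurable (μ := volume.restrict Ω)
  have hm := h.adm.smooth_mu.continuous.aestronglyMeasurable (μ := volume.restrict Ω)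
  have hmeas : AEStronglyMeasurable (qfun lam mu P) (volume.restrict Ω) := by
    refine (PiLp.continuous_toLp 2 _).comp_aestronglyMeasurable ?_
    refine AEMeasurable.aestronglyMeasurable (aemeasurable_pi_lambda _ fun o => ?_)
    rcases o with _ | ⟨i, j⟩
    · exact ((hl.aemeasurable.add ((hm.aemeasurable.const_mul 2).div_const 3)).sqrt).mul
        (Finset.aemeasurable_fun_sum _ fun k _ => (hP k k).1.aemeasurable)
    · refine ((hm.aemeasurable.const_mul 2).sqrt).mul
        ((((hP i j).1.aemeasurable.add (hP j i).1.aemeasurable).div_const 2).sub ?_)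
      split_ifs
      · exact (Finset.aemeasurable_fun_sum _ fun k _ => (hP k k).1.aemeasurable).div_const 3
      · exact aemeasurable_const
  obtain ⟨C, hC0, hC⟩ := qfun_bound h
  have hg : MemLp (fun x => C * ∑ i, ∑ j, |P x i j|) 2 (volume.restrict Ω) :=
    (memLp_finsetSum _ fun i _ => memLp_finsetSum _ fun j _ => (hP i j).abs).const_mul C
  refine hg.mono hmeas ?_
  filter_upwards [hC P] with x hx
  exact hx.trans (le_abs_self _)

/-- The class of `qfun P`. -/
def toH (h : Setup Ω lam mu) {P : R3 → Fin 3 → Fin 3 → ℝ} (hP : MemL2 Ω P) : H Ω :=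
  (memLp_qfun h hP).toLp

theorem toH_sub (h : Setup Ω lam mu) {P Q : R3 → Fin 3 → Fin 3 → ℝ} (hP : MemL2 Ω P)
    (hQ : MemL2 Ω Q) : toH h (hP.sub hQ) = toH h hP - toH h hQ := by
  rw [toH, toH, toH, ← MemLp.toLp_sub]
  exact MemLp.toLp_congr _ _ (.of_forall fun x => qmap_sub _ _ _ _)

theorem toH_add (h : Setup Ω lam mu) {P Q : R3 → Fin 3 → Fin 3 → ℝ} (hP : MemL2 Ω P)
    (hQ : MemL2 Ω Q) : toH h (hP.add hQ) = toH h hP + toH h hQ := by
  rw [toH, toH, toH, ← MemLp.toLp_add]
  exact MemLp.toLp_congr _ _ (.of_forall fun x => qmap_add _ _ _ _)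

theorem inner_toH (h : Setup Ω lam mu) {P Q : R3 → Fin 3 → Fin 3 → ℝ} (hP : MemL2 Ω P)
    (hQ : MemL2 Ω Q) : ⟪toH h hP, toH h hQ⟫ = pairing Ω lam mu P Q := by
  rw [L2.inner_def]
  refine integral_congr_ae ?_
  filter_upwards [(memLp_qfun h hP).coeFn_toLp, (memLp_qfun h hQ).coeFn_toLp,
    self_mem_ae_restrict h.isOpen.measurableSet] with x hx hy hm
  simp only [toH, hx, hy]
  exact inner_qmap (h.a_pos (subset_closure hm)).le (h.adm.mu_pos x (subset_closure hm)).le _ _

theorem memL2_of_continuousOn (h : Setup Ω lam mu) {P : R3 → Fin 3 → Fin 3 → ℝ}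
    (hP : ∀ i j, ContinuousOn (fun x => P x i j) (closure Ω)) : MemL2 Ω P := fun i j => by
  have hfin : IsFiniteMeasure (volume.restrict Ω : Measure R3) :=
    isFiniteMeasure_restrict.2 h.bounded.measure_lt_top.ne
  obtain ⟨C, hC⟩ := h.compact.exists_bound_of_continuousOn (hP i j)
  refine MemLp.of_bound (((hP i j).mono subset_closure).aestronglyMeasurable
    h.isOpen.measurableSet) C ?_
  filter_upwards [self_mem_ae_restrict h.isOpen.measurableSet] with x hx
  exact hC x (subset_closure hx)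

theorem memL2_test (h : Setup Ω lam mu) {φ : R3 → Fin 3 → ℝ} (hφ : Test Ω φ) :
    MemL2 Ω (grad φ) :=
  memL2_of_continuousOn h fun i j => (cont_grad hφ.smooth i j).continuousOn

/-- The class of the gradient of a test field. -/
def testH (h : Setup Ω lam mu) {φ : R3 → Fin 3 → ℝ} (hφ : Test Ω φ) : H Ω :=
  toH h (memL2_test h hφ)

/-- The closed span of the classes of test fields. -/
def W (h : Setup Ω lam mu) : Submodule ℝ (H Ω) :=
  (Submodule.span ℝ {z | ∃ φ, ∃ hφ : Test Ω φ, testH h hφ = z}).topologicalClosure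

instance (h : Setup Ω lam mu) : CompleteSpace (W h) :=
  (Submodule.isClosed_topologicalClosure _).completeSpace_coe

theorem testH_mem (h : Setup Ω lam mu) {φ : R3 → Fin 3 → ℝ} (hφ : Test Ω φ) :
    testH h hφ ∈ W h :=
  Submodule.le_topologicalClosure _ (Submodule.subset_span ⟨φ, hφ, rfl⟩)

theorem testH_sub (h : Setup Ω lam mu) {φ ψ : R3 → Fin 3 → ℝ} (hφ : Test Ω φ) (hψ : Test Ω ψ) :
    testH h (hφ.sub hψ) = testH h hφ - testH h hψ := by
  rw [testH, testH, testH, ← toH_sub]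
  simp only [grad_sub hφ.smooth hψ.smooth]

theorem test_zero : Test Ω (0 : R3 → Fin 3 → ℝ) :=
  ⟨contDiff_const, HasCompactSupport.zero, by simp⟩

theorem exists_testH_of_mem_span (h : Setup Ω lam mu) {z : H Ω}
    (hz : z ∈ Submodule.span ℝ {z | ∃ φ, ∃ hφ : Test Ω φ, testH h hφ = z}) :
    ∃ φ, ∃ hφ : Test Ω φ, testH h hφ = z := by
  induction hz using Submodule.span_induction with
  | mem z hz => exact hz
  | zero => exact ⟨0 - 0, test_zero.sub test_zero, by rw [testH_sub h test_zero test_zero, sub_self]⟩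
  | add a b _ _ ha hb =>
    obtain ⟨φ, hφ, rfl⟩ := ha
    obtain ⟨ψ, hψ, rfl⟩ := hb
    refine ⟨φ + ψ, hφ.add hψ, ?_⟩
    rw [testH, testH, testH, ← toH_add]
    simp only [grad_add hφ.smooth hψ.smooth]
  | smul c a _ ha =>
    obtain ⟨φ, hφ, rfl⟩ := ha
    refine ⟨c • φ, ⟨hφ.smooth.const_smul c, hφ.compact.smul_left,
      (tsupport_smul_subset_right (fun _ => c) φ).trans hφ.inside⟩, ?_⟩
    rw [testH, testH, toH, toH, ← MemLp.toLp_const_smul]
    refine MemLp.toLp_congr _ _ (.of_forall fun x => ?_)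
    show qmap _ _ (grad (c • φ) x) = c • qmap _ _ (grad φ x)
    rw [← qmap_smul]
    congr 1
    funext i j
    simp only [grad, pd, Pi.smul_apply]
    rw [fderiv_fun_const_smul ((contDiff_pi.1 hφ.smooth i).differentiable (by norm_num) x) c]
    rfl

/-- `∫ (∂ j φ i)² ≤ K ‖testH φ‖²`. -/
theorem grad_le_testH (h : Setup Ω lam mu) :
    ∃ K, 0 ≤ K ∧ ∀ (φ : R3 → Fin 3 → ℝ) (hφ : Test Ω φ), ∀ i j,
      eLpNorm (fun x => grad φ x i j) 2 volume ≤ ENNReal.ofReal (K * ‖testH h hφ‖) := by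
  obtain ⟨c, hc0, hc⟩ := h.coercive
  refine ⟨Real.sqrt (2 / c), by positivity, fun φ hφ i j => ?_⟩
  have hcont := cont_grad hφ.smooth
  have hS : Continuous fun x => ∑ a, ∑ b, ((grad φ x a b + grad φ x b a) / 2) ^ 2 :=
    continuous_finsetSum _ fun a _ => continuous_finsetSum _ fun b _ =>
      (((hcont a b).add (hcont b a)).div_const 2).pow 2
  have hzero : ∀ x, x ∉ Ω → ∑ a, ∑ b, ((grad φ x a b + grad φ x b a) / 2) ^ 2 = 0 := fun x hx => by
    simp [hφ.grad_eq_zero hx]
  have key : c * ∫ x, ∑ a, ∑ b, ((grad φ x a b + grad φ x b a) / 2) ^ 2 ≤ ‖testH h hφ‖ ^ 2 := by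
    rw [← setIntegral_eq_integral_of_forall_compl_eq_zero hzero, ← integral_const_mul,
      ← real_inner_self_eq_norm_sq, testH, inner_toH h]
    refine setIntegral_mono_on ?_ ?_ h.isOpen.measurableSet fun x hx => ?_
    · exact ((continuous_const.mul hS).continuousOn.integrableOn_compact h.compact).mono_set
        subset_closure
    · refine (ContinuousOn.integrableOn_compact h.compact ?_).mono_set subset_closure
      have hl := h.adm.smooth_lam.continuous
      have hm := h.adm.smooth_mu.continuous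
      unfold rform
      fun_prop
    · have := hc x (subset_closure hx) (grad φ x)
      rwa [inner_qmap (h.a_pos (subset_closure hx)).le (h.adm.mu_pos x (subset_closure hx)).le]
        at this
  have hk := korn hφ i j
  have hsq : ∫ x, grad φ x i j ^ 2 ≤ (2 / c) * ‖testH h hφ‖ ^ 2 := by
    refine hk.trans ?_
    rw [div_mul_eq_mul_div, le_div_iff₀ hc0]
    linarith
  rw [(((hcont i j).memLp_of_hasCompactSupport (hφ.comp_grad i j)) :
    MemLp _ 2 volume).eLpNorm_eq_integral_rpow_norm two_ne_zero ENNReal.ofNat_ne_top]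
  refine ENNReal.ofReal_le_ofReal ?_
  simp only [ENNReal.toReal_ofNat, Real.norm_eq_abs, Real.rpow_two, sq_abs]
  rw [show (2 : ℝ)⁻¹ = 1 / 2 by norm_num, ← Real.sqrt_eq_rpow]
  refine (Real.sqrt_le_sqrt hsq).trans_eq ?_
  rw [Real.sqrt_mul (by positivity), Real.sqrt_sq (norm_nonneg _)]

/-- Poincaré's inequality for test fields. -/
theorem poincare (hΩ : Bornology.IsBounded Ω) :
    ∃ K : NNReal, ∀ φ, Test Ω φ → ∀ i, eLpNorm (fun x => φ x i) 2 volume
      ≤ K * ∑ j, eLpNorm (fun x => grad φ x i j) 2 volume := by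
  refine ⟨eLpNormLESNormFDerivOfLeConst ℝ (volume : Measure R3) Ω 2 2, fun φ hφ i => ?_⟩
  have hu : ContDiff ℝ 1 fun x => φ x i := (contDiff_pi.1 hφ.smooth i).of_le (by norm_num)
  have hs : (Function.support fun x => φ x i) ⊆ Ω := fun x hx =>
    hφ.inside (subset_tsupport _ fun h0 => hx (by simp [h0]))
  have := eLpNorm_le_eLpNorm_fderiv_of_le (μ := (volume : Measure R3)) (p := 2) (q := 2) hu hs
    one_le_two (by simp; norm_num) (by norm_num) hΩ
  refine this.trans (mul_le_mul' le_rfl ?_)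
  refine (eLpNorm_mono_real (g := fun x => ∑ j, |grad φ x i j|) fun x => ?_).trans ?_
  · refine ContinuousLinearMap.opNorm_le_bound _ (by positivity) fun v => ?_
    have hv : v = ∑ j, v j • EuclideanSpace.single j (1 : ℝ) := by
      ext k; fin_cases k <;> simp [Fin.sum_univ_three]
    conv_lhs => rw [hv]
    rw [map_sum, Finset.sum_mul]
    refine (norm_sum_le _ _).trans (Finset.sum_le_sum fun j _ => ?_)
    rw [map_smul, norm_smul, mul_comm]
    exact mul_le_mul (le_of_eq rfl) (PiLp.norm_apply_le v j) (norm_nonneg _) (abs_nonneg _)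
  · rw [show (fun x => ∑ j, |grad φ x i j|) = ∑ j, fun x => |grad φ x i j| by
      funext x; simp]
    refine (eLpNorm_sum_le (fun j _ => (cont_grad hφ.smooth i j).abs.aestronglyMeasurable)
      one_le_two).trans (le_of_eq ?_)
    refine Finset.sum_congr rfl fun j _ => ?_
    exact eLpNorm_congr_norm_ae (.of_forall fun x => abs_abs _)

/-- A Cauchy sequence in `L²` has a limit, as a function. -/
theorem exists_lim {f : ℕ → R3 → ℝ} (hf : ∀ n, MemLp (f n) 2 (volume.restrict Ω))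
    {b : ℕ → ℝ} (hb : Tendsto b atTop (𝓝 0))
    (hfb : ∀ N m n, N ≤ m → N ≤ n →
      eLpNorm (f m - f n) 2 (volume.restrict Ω) ≤ ENNReal.ofReal (b N)) (hb0 : ∀ N, 0 ≤ b N) :
    ∃ g, MemLp g 2 (volume.restrict Ω) ∧
      Tendsto (fun n => eLpNorm (f n - g) 2 (volume.restrict Ω)) atTop (𝓝 0) := by
  have hc : CauchySeq fun n => (hf n).toLp := by
    refine cauchySeq_of_le_tendsto_0 b (fun n m N hn hm => ?_) hb
    rw [dist_eq_norm, ← MemLp.toLp_sub, Lp.norm_toLp]
    exact ENNReal.toReal_le_of_le_ofReal (hb0 N) (hfb N n m hn hm)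
  obtain ⟨L, hL⟩ := cauchySeq_tendsto_of_complete hc
  refine ⟨L, Lp.memLp L, ?_⟩
  refine ((Lp.tendsto_Lp_iff_tendsto_eLpNorm' _ _).1 hL).congr fun n => eLpNorm_congr_ae ?_
  filter_upwards [(hf n).coeFn_toLp] with x hx
  simp [hx]

/-- Convergence of the components gives convergence of the classes. -/
theorem tendsto_toH (h : Setup Ω lam mu) {P : ℕ → R3 → Fin 3 → Fin 3 → ℝ}
    {Q : R3 → Fin 3 → Fin 3 → ℝ} (hP : ∀ n, MemL2 Ω (P n)) (hQ : MemL2 Ω Q)
    (hlim : ∀ i j, Tendsto (fun n => eLpNorm (fun x => P n x i j - Q x i j) 2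
      (volume.restrict Ω)) atTop (𝓝 0)) :
    Tendsto (fun n => toH h (hP n)) atTop (𝓝 (toH h hQ)) := by
  refine (Lp.tendsto_Lp_iff_tendsto_eLpNorm'' _ (fun n => memLp_qfun h (hP n)) _
    (memLp_qfun h hQ)).2 ?_
  obtain ⟨C, hC0, hC⟩ := qfun_bound h
  have hsum : Tendsto (fun n => ENNReal.ofReal C * ∑ i, ∑ j,
      eLpNorm (fun x => P n x i j - Q x i j) 2 (volume.restrict Ω)) atTop (𝓝 0) := by
    have := ENNReal.Tendsto.const_mul (tendsto_finsetSum _ fun i (_ : i ∈ Finset.univ) =>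
      tendsto_finsetSum _ fun j (_ : j ∈ Finset.univ) => hlim i j)
      (a := ENNReal.ofReal C) (Or.inr ENNReal.ofReal_ne_top)
    simpa using this
  refine tendsto_of_tendsto_of_tendsto_of_le_of_le tendsto_const_nhds hsum
    (fun n => zero_le) fun n => ?_
  have e : qfun lam mu (P n) - qfun lam mu Q = qfun lam mu (P n - Q) :=
    funext fun x => (qmap_sub _ _ _ _).symm
  rw [e]
  refine (eLpNorm_mono_ae_real (hC (P n - Q))).trans ?_
  rw [show (fun x => C * ∑ i, ∑ j, |(P n - Q) x i j|)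
    = C • ∑ i, ∑ j, fun x => |(P n - Q) x i j| by funext x; simp, eLpNorm_const_smul,
    Real.enorm_of_nonneg hC0]
  refine mul_le_mul' le_rfl ?_
  have hm : ∀ i j, AEStronglyMeasurable (fun x => |(P n - Q) x i j|) (volume.restrict Ω) :=
    fun i j => ((hP n i j).sub (hQ i j)).abs.1
  refine (eLpNorm_sum_le (fun i _ => Finset.aestronglyMeasurable_sum _ fun j _ => hm i j)
    one_le_two).trans (Finset.sum_le_sum fun i _ => ?_)
  refine (eLpNorm_sum_le (fun j _ => hm i j) one_le_two).trans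
    (Finset.sum_le_sum fun j _ => le_of_eq ?_)
  exact eLpNorm_congr_norm_ae (.of_forall fun x => abs_abs _)

/-- The class of the gradient of an `H¹₀` field lies in `W`. -/
theorem IsH10.mem (h : Setup Ω lam mu) {w : R3 → Fin 3 → ℝ} {Dw : R3 → Fin 3 → Fin 3 → ℝ}
    (hw : IsH10 Ω w Dw) : ∃ hD : MemL2 Ω Dw, toH h hD ∈ W h := by
  obtain ⟨φ, hφ, -, hD⟩ := hw
  refine ⟨fun i j => (hD i j).1, ?_⟩
  exact (Submodule.isClosed_topologicalClosure _).mem_of_tendsto
    (tendsto_toH h (fun n => memL2_test h (hφ n)) _ fun i j => (hD i j).2)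
    (.of_forall fun n => testH_mem h (hφ n))

/-- Every element of `W` is the class of the gradient of an `H¹₀` field. -/
theorem exists_H10 (h : Setup Ω lam mu) {z : H Ω} (hz : z ∈ W h) :
    ∃ w Dw, IsH10 Ω w Dw ∧ ∃ hD : MemL2 Ω Dw, toH h hD = z := by
  obtain ⟨s, hs, hslim⟩ := mem_closure_iff_seq_limit.1
    (show z ∈ closure ((Submodule.span ℝ {z | ∃ φ, ∃ hφ : Test Ω φ, testH h hφ = z}
      : Submodule ℝ (H Ω)) : Set (H Ω)) from hz)
  choose φ hφ hφs using fun n => exists_testH_of_mem_span h (hs n)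
  obtain ⟨K, hK0, hK⟩ := grad_le_testH h
  obtain ⟨P, hP⟩ := poincare h.bounded
  obtain ⟨b, hb0, hb, hblim⟩ :=
    cauchySeq_iff_le_tendsto_0.1 hslim.cauchySeq
  have hdiff : ∀ N m n, N ≤ m → N ≤ n → ∀ i j,
      eLpNorm (fun x => grad (φ m - φ n) x i j) 2 volume ≤ ENNReal.ofReal (K * b N) := by
    intro N m n hm hn i j
    refine (hK _ ((hφ m).sub (hφ n)) i j).trans (ENNReal.ofReal_le_ofReal ?_)
    refine mul_le_mul_of_nonneg_left ?_ hK0
    rw [testH_sub h (hφ m) (hφ n), hφs m, hφs n, ← dist_eq_norm]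
    exact hb m n N hm hn
  have hD : ∀ i j, ∃ g, MemLp g 2 (volume.restrict Ω) ∧ Tendsto (fun n =>
      eLpNorm ((fun x => grad (φ n) x i j) - g) 2 (volume.restrict Ω)) atTop (𝓝 0) := fun i j =>
    exists_lim (fun n => memL2_test h (hφ n) i j)
      (b := fun N => K * b N) (by simpa using hblim.const_mul K)
      (fun N m n hm hn => by
        refine (eLpNorm_restrict_le _ _ _ _).trans (le_trans (le_of_eq ?_) (hdiff N m n hm hn i j))
        rw [grad_sub (hφ m).smooth (hφ n).smooth]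
        rfl)
      (fun N => mul_nonneg hK0 (hb0 N))
  have hW : ∀ i, ∃ g, MemLp g 2 (volume.restrict Ω) ∧ Tendsto (fun n =>
      eLpNorm ((fun x => φ n x i) - g) 2 (volume.restrict Ω)) atTop (𝓝 0) := fun i =>
    exists_lim
      (fun n => ((contDiff_pi.1 (hφ n).smooth i).continuous.memLp_of_hasCompactSupport
        ((hφ n).comp i)).restrict _)
      (b := fun N => P * (3 * (K * b N))) (by simpa using ((hblim.const_mul K).const_mul 3).const_mul (P : ℝ))
      (fun N m n hm hn => by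
        refine (eLpNorm_restrict_le _ _ _ _).trans ((hP _ ((hφ m).sub (hφ n)) i).trans ?_)
        refine (mul_le_mul' le_rfl (Finset.sum_le_card_nsmul _ _ _
          fun j _ => hdiff N m n hm hn i j)).trans (le_of_eq ?_)
        rw [ENNReal.ofReal_mul P.coe_nonneg, ENNReal.ofReal_mul (by norm_num : (0 : ℝ) ≤ 3),
          ENNReal.ofReal_coe_nnreal, nsmul_eq_mul]
        simp)
      (fun N => mul_nonneg P.coe_nonneg (mul_nonneg (by norm_num) (mul_nonneg hK0 (hb0 N))))
  choose Dg hDg1 hDg2 using hD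
  choose wg hwg1 hwg2 using hW
  refine ⟨fun x i => wg i x, fun x i j => Dg i j x,
    ⟨φ, hφ, fun i => ⟨hwg1 i, hwg2 i⟩, fun i j => ⟨hDg1 i j, hDg2 i j⟩⟩, hDg1, ?_⟩
  refine tendsto_nhds_unique (tendsto_toH h (fun n => memL2_test h (hφ n)) hDg1 hDg2) ?_
  exact hslim.congr fun n => (hφs n).symm

/-- Being orthogonal to the test fields. -/
theorem mem_orth (h : Setup Ω lam mu) {P : R3 → Fin 3 → Fin 3 → ℝ} (hP : MemL2 Ω P) :
    toH h hP ∈ (W h)ᗮ ↔ ∀ φ, Test Ω φ → pairing Ω lam mu P (grad φ) = 0 := by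
  constructor
  · intro hmem φ hφ
    rw [← inner_toH h hP (memL2_test h hφ)]
    exact Submodule.inner_left_of_mem_orthogonal (testH_mem h hφ) hmem
  · intro H0
    rw [W, Submodule.orthogonal_closure, Submodule.mem_orthogonal']
    intro u hu
    obtain ⟨φ, hφ, rfl⟩ := exists_testH_of_mem_span h hu
    rw [testH, inner_toH]
    exact H0 φ hφ

/-- Weak solutions exist. -/
theorem exists_sol (h : Setup Ω lam mu) {E : R3 → Fin 3 → ℝ} (hE : MemL2 Ω (grad E)) :
    ∃ w Dw, IsSol Ω lam mu E w Dw ∧ ∃ hD : MemL2 Ω Dw,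
      toH h (hE.add hD) = toH h hE - (W h).starProjection (toH h hE) := by
  obtain ⟨w, Dw, hw, hD, hz⟩ := exists_H10 h
    (Submodule.neg_mem _ (Submodule.starProjection_apply_mem (W h) (toH h hE)))
  have e : toH h (hE.add hD) = toH h hE - (W h).starProjection (toH h hE) := by
    rw [toH_add h hE hD, hz, sub_eq_add_neg]
  refine ⟨w, Dw, ⟨hw, ?_⟩, hD, e⟩
  refine (mem_orth h (hE.add hD)).1 ?_
  rw [e]
  exact Submodule.sub_starProjection_mem_orthogonal _

end Vale.Agent.P136.DN
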